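import Mathlib
import Vale.Agent.Lib.P248.helper25.ABDefs

/-!
# P248 (job AB7, backup copy of helper94): basic properties of the cones

`cone A x i` is contained in `A` when `A` is convex and `x ∈ A`; the cones over different
faces are disjoint; each cone is measurable when `A` is closed.
-/

namespace Vale.Agent.Lib.P248.H94

open Vale.Agent.Lib.P248.H25 MeasureTheory
open scoped ENNReal

theorem cone_subset {n : ℕ} {A : Set (Fin (n + 1) → ℝ)} (hc : Convex ℝ A)
    {x : Fin (n + 1) → ℝ} (hx : x ∈ A) (i : Fin (n + 1)) : cone A x i ⊆ A := by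
  intro p hp
  obtain ⟨hp0, hpx, -, hb⟩ := hp
  have hxi : 0 < x i := lt_trans hp0 hpx
  have hd : 0 < x i - p i := sub_pos.2 hpx
  have ht0 : 0 ≤ p i / x i := (div_pos hp0 hxi).le
  have ht1 : 0 ≤ 1 - p i / x i := by
    rw [sub_nonneg, div_le_one hxi]
    exact hpx.le
  have key := hc hb hx ht1 ht0 (by ring)
  have hpe : (1 - p i / x i) • ((x i - p i)⁻¹ • (x i • p - p i • x)) + (p i / x i) • x = p := by
    funext j
    simp only [Pi.add_apply, Pi.smul_apply, Pi.sub_apply, smul_eq_mul]
    field_simp
    ring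
  rw [hpe] at key
  exact key

theorem cone_disjoint {n : ℕ} (A : Set (Fin (n + 1) → ℝ)) (x : Fin (n + 1) → ℝ)
    {i k : Fin (n + 1)} (hik : i ≠ k) : Disjoint (cone A x i) (cone A x k) := by
  rw [Set.disjoint_left]
  intro p hpi hpk
  obtain ⟨-, -, h1, -⟩ := hpi
  obtain ⟨-, -, h2, -⟩ := hpk
  have a := h1 k (Ne.symm hik)
  have b := h2 i hik
  nlinarith [a, b]

theorem cone_measurable {n : ℕ} {A : Set (Fin (n + 1) → ℝ)} (hA : IsClosed A)
    (x : Fin (n + 1) → ℝ) (i : Fin (n + 1)) : MeasurableSet (cone A x i) := by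
  have hpi : Measurable fun p : Fin (n + 1) → ℝ => p i := measurable_pi_apply i
  have hf : Measurable fun p : Fin (n + 1) → ℝ => (x i - p i)⁻¹ • (x i • p - p i • x) := by
    refine measurable_pi_iff.2 fun j => ?_
    have hpj : Measurable fun p : Fin (n + 1) → ℝ => p j := measurable_pi_apply j
    have : (fun p : Fin (n + 1) → ℝ => ((x i - p i)⁻¹ • (x i • p - p i • x)) j)
        = fun p : Fin (n + 1) → ℝ => (x i - p i)⁻¹ * (x i * p j - p i * x j) := by
      funext p
      simp only [Pi.smul_apply, Pi.sub_apply, smul_eq_mul]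
    rw [this]
    exact ((measurable_const.sub hpi).inv).mul
      ((measurable_const.mul hpj).sub (hpi.mul measurable_const))
  have e : cone A x i = {p | 0 < p i} ∩ ({p | p i < x i} ∩
      ((⋂ j, {p : Fin (n + 1) → ℝ | j ≠ i → 0 < x i * p j - p i * x j}) ∩
        (fun p : Fin (n + 1) → ℝ => (x i - p i)⁻¹ • (x i • p - p i • x)) ⁻¹' A)) := by
    ext p
    simp only [cone, Set.mem_ofPred_eq, Set.mem_inter_iff, Set.mem_iInter, Set.mem_preimage]
  rw [e]
  refine (measurableSet_lt measurable_const hpi).inter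
    ((measurableSet_lt hpi measurable_const).inter
      ((MeasurableSet.iInter fun j => ?_).inter (hf hA.measurableSet)))
  have hpj : Measurable fun p : Fin (n + 1) → ℝ => p j := measurable_pi_apply j
  by_cases hji : j = i
  · have : {p : Fin (n + 1) → ℝ | j ≠ i → 0 < x i * p j - p i * x j} = Set.univ := by
      ext p
      simp [hji]
    rw [this]
    exact MeasurableSet.univ
  · have : {p : Fin (n + 1) → ℝ | j ≠ i → 0 < x i * p j - p i * x j}
        = {p : Fin (n + 1) → ℝ | 0 < x i * p j - p i * x j} := by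
      ext p
      simp [hji]
    rw [this]
    exact measurableSet_lt measurable_const
      ((measurable_const.mul hpj).sub (hpi.mul measurable_const))

end Vale.Agent.Lib.P248.H94
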